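import Crest.Agent.X212.Msc43.Ch
import Crest.Agent.X212.Nck90.Xc
import Crest.Agent.X212.Msi61.Defs

/-!
# X212, MS-COMP (helper43), part 2: `Msi61.CmpS`
-/

set_option autoImplicit false
set_option linter.unusedSectionVars false
noncomputable section
open scoped Manifold ContDiff Topology InnerProductSpace
open MeasureTheory Set Function Filter

namespace Crest.Agent.X212.Msc43
open An M Sob92 Cyf70 Neck67 Cmp73 Pj41 Eqv71 Tmp64 Nd18 Std94 Bki64 Nck90 Msi61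
open Dec35 (Asol DecU Bl P1In LzIn)

variable {κ lam : Type} [Fintype κ] [Fintype lam] {Y : Mf 3} [CompactSpace Y.M]
  {D : YD Y.I Y.M κ lam} {N : ND Y.M lam} {β β' : YC Y.M κ lam} {γ d d' σ : ℝ}
  {𝒯 : Set (Pt (Y.M × ℝ) (Option κ) lam 0 0)} {ν : Type} {l : Filter ν}
  {c : ν → Cfg (Y.M × ℝ) (Option κ) lam 0} {Ad : (YW Y.I Y.M →₀ ℝ) → Prop}

theorem decU_mono (h : DecU D β γ d 𝒯) (e : d' ≤ d) : DecU D β γ d' 𝒯 := fun k' K k B hB =>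
  (h k' K k B hB).imp fun _ h => ⟨h.1, fun τ hτ r c S a b hab h1 h2 =>
    let ⟨u, ζ, h3⟩ := h.2 τ hτ r c S a b hab h1 h2
    ⟨u, ζ, fun s hs => (h3 s hs).mono (win_op _ _) Subset.rfl le_rfl (mul_le_mul_of_nonneg_left
      (Real.exp_le_exp.2 (mul_le_mul_of_nonneg_right (neg_le_neg e)
        (le_min (sub_nonneg.2 hs.1) (sub_nonneg.2 hs.2)))) hB.le)⟩⟩

theorem lim_end (hβ : D.Adm β) {e : Filter ℝ} (he : ∀ S, S ∈ e ↔ ∃ T, {s | T < σ * s} ⊆ S)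
    {x : Cfg (Y.M × ℝ) (Option κ) lam 0} {ζ : Circle} (hx : x.Adm D.B D.G) (h : D.nk.Lim x β ζ e) :
    ∃ u, ∀ k, ∀ η > 0, ∃ T, Cl D.Z x (cy β) u (fun _ => ζ) (univ ×ˢ {s | T < σ * s}) k η :=
  h.imp fun _ h k η p => let ⟨_, a, _, b⟩ := h k η p; ((he _).1 a).imp fun _ a =>
    (cl_of_cls (c := x) hβ ((admOn_univ.2 hx).mono (subset_univ _)) b).mono
      (isOpen_univ.prod (isOpen_lt (by fun_prop) (by fun_prop))) (prod_mono_right a) le_rfl le_rfl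

theorem tl_of (hD : D.OK) (hβ : D.Adm β) (hd : 0 < d) (h : DecU D β γ d 𝒯) (hσ : σ = 1 ∨ σ = -1)
    {e : Filter ℝ} (he : ∀ S, S ∈ e ↔ ∃ T, {s | T < σ * s} ⊆ S) {k' K} {z : ν → Circle}
    (ha : ∀ᶠ n in l, (c n).Adm D.B D.G ∧ (∃ τ ∈ 𝒯, Asol D β τ γ k' K (c n) univ) ∧
      D.nk.Lim (c n) β (z n) e) {c₀ : Cfg (Y.M × ℝ) (Option κ) lam 0} {v ζ} (h0 : c₀.Adm D.B D.G)
    (hv : CvC D.Z l (ρ := fun _ => 0) c c₀ v univ) (h1 : D.nk.Lim c₀ β ζ e)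
    (hn : ∀ η > 0, ∃ T, ∀ᶠ n in l, ∀ s, T ≤ s →
      ∃ u ξ, Cn D (c n) β u ξ (win Y.M (σ * s) η⁻¹) η) : Tl D d l c β σ := by
  obtain ⟨u, hu⟩ := lim_end hβ he h0 h1
  obtain ⟨T, hT⟩ := hu 0 1 one_pos
  have A := fun n (h : (c n).Adm D.B D.G) O => (admOn_univ.2 h).mono (subset_univ O)
  obtain ⟨w, w1, w2⟩ := Dec35.tailZ (T := T) (ζ := z) hD hβ hd h hσ (ha.mono fun n a =>
    ⟨A n a.1 _, a.2.1.imp fun _ b => ⟨b.1, b.2.mono (subset_univ _)⟩, lim_end hβ he a.1 a.2.2⟩) hn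
    fun k T' => by
      obtain ⟨C, hC⟩ := bd_cl hβ hv h0 (win_op (σ * ((T + T' + 2) / 2)) ((T' - T) / 2))
        (cwin_cpt _ _) (win_cw _ _) (prod_mono_right fun x hx => show T < σ * x by
          rcases hσ with rfl | rfl <;> linarith [hx.1, hx.2]) hT.iso k
      exact ⟨C, hC.mono fun n a s hs => ⟨_, _, a.mono (win_op _ _) (prod_mono_right
        (Ioo_subset_Ioo (by rcases hσ with rfl | rfl <;> linarith [hs.1, hs.2])
          (by rcases hσ with rfl | rfl <;> linarith [hs.1, hs.2]))) le_rfl le_rfl⟩⟩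
  exact ⟨T + 2, w, z, (w1.and ha).mono fun n a k => (a.1 k).imp fun _ b s hs =>
    Cl.cls hβ isOpen_Ioo (A n a.2.1 _) (b s hs), fun k => (w2 k).imp fun _ a => (a.and ha).mono
      fun n a s hs => Cl.cls hβ isOpen_Ioo (A n a.2.1 _) (a.1 s hs)⟩

/-- trajectories of bounded energy are approximate solutions -/
theorem asol_tj (hX : (XD.mk Y D N).OK) (h : XI D N Ad)
    (hA : AllN (IC Y.I) (Y.M × ℝ) D N 0 0 fun _ l _ F => Rich F → ∃ k' K d, ∀ᶠ n in l,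
      Asol D β (N.pt D.nk (F.q n)) γ k' K (F.c n) (Dp (F.K n).p (F.K n).q d))
    {q : ν → YW Y.I Y.M →₀ ℝ} {q₀} (cv : St.Cv l q q₀) {E : ℝ} (hc : ∀ᶠ n in l, Ad (q n) ∧
      ∃ β β' ζ ζ', N.Crit D β ∧ N.Crit D β' ∧ N.Traj D (q n) (c n) β β' ζ ζ' ∧
        N.tE D (c n) β β' ≤ E) :
    ∃ k' K, ∀ᶠ n in l, Asol D β (N.pt D.nk (q n)) γ k' K (c n) univ := by
  obtain ⟨T, Q, hq⟩ := inB_ev cv
  obtain ⟨S, C, h1⟩ := h.apt T Q E
  let P : ν → Prop := fun n => (c n).Sol D.B D.G (N.pt D.nk (q n) : Pt _ _ _ 0 0) ∧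
    (∃ w, AG D.B D.G (c n) w S C ∧ AN D.nk (c n) w C) ∧
      ∃ x, Dgr80.Gd D.B D.G x ∧ Cfg.Iso D.B D.Z x (c n)
  have hP : ∀ᶠ n in l, P n := (hc.and hq).mono fun n ⟨⟨a0, _, _, _, _, a⟩, b⟩ =>
    ⟨a.2.2.1.sol, h1 _ _ _ _ _ _ a0 b a.1 a.2.1 a.2.2.1 a.2.2.2,
      h.lit _ _ _ _ _ _ a.1 a.2.1 a.2.2.1⟩
  choose w hw using fun n : {n // P n} => n.2.2.1
  let F : NF (IC Y.I) (fun _ : {n // P n} => Y.M × ℝ) D 0 0 := ⟨fun _ => D.B, fun _ => D.G,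
    fun _ => D.nk, fun n => c n, fun n => N.pt D.nk (q n), fun n => q n, w⟩
  obtain ⟨k', K, d, k⟩ := hA _ (comap Subtype.val l) q₀ F ⟨Y.dim, hX.con, hX.ok, hX.nd,
    fun n => n.2.1, cv.imp fun _ k => ⟨fun n => k.1 n, fun x => (k.2 x).comp tendsto_comap⟩,
    ⟨0, .of_forall fun _ _ _ => ⟨rfl, rfl⟩⟩, S, C, hw⟩
    fun n => ⟨hX.ok.B, hX.ok.G, (okZ hX.ok Y.dim.le).tame, n.2.2.2⟩
  refine ⟨k', K, ?_⟩
  filter_upwards [eventually_comap.1 k, hP] with n a1 a2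
  exact (a1 ⟨n, a2⟩ rfl).mono fun _ _ => by simp [F, YD.nk, Dp]

variable (S : N.CD D) (Γ : Gr S.C)

theorem cmpL (hX : (XD.mk Y D N).OK) (h : XI D N Ad) (hd : 0 < d) (hA : ∀ i, ∃ γ,
    (∀ J Q, DecU D (S.β i) γ d (Bl D N J Q)) ∧
    AllN (IC Y.I) (Y.M × ℝ) D N 0 0 fun _ l _ F => Rich F → ∃ k' K d, ∀ᶠ n in l,
      Asol D (S.β i) (N.pt D.nk (F.q n)) γ k' K (F.c n) (Dp (F.K n).p (F.K n).q d)) :
    CmpL S Γ d Ad := by
  classical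
  intro i j n b q₀ h0 ι 𝒰 q' c cv' hc
  have hD : D.OK := hX.ok
  have oZ := okZ hD Y.dim.le
  let q := fun m => if Ad (q' m) then q' m else q₀
  have cv : St.Cv (𝒰 : Filter ι) q q₀ := cv'.imp fun _ k => ⟨fun m w hw => by
    simp only [q]; split_ifs; exacts [k.1 m w hw, rfl], fun w => (k.2 w).congr'
      (hc.mono fun m a => by simp only [q, if_pos a.1])⟩
  have hq : ∀ m, Ad (q m) := fun m => by simp only [q]; split_ifs <;> assumption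
  have hc : ∀ᶠ m in (𝒰 : Filter ι), S.Mv Γ (q m) i j n (c m) ∧ S.Ty (c m) b :=
    hc.mono fun m a => by simp only [q, if_pos a.1]; exact a.2
  obtain ⟨z, h1⟩ := ev_choice (hc.mono fun _ a => a.1.tr)
  obtain ⟨z', h1⟩ := ev_choice h1
  have b1 := fun i => crit_adm (S.crit i)
  have h2 : ∀ t : ι → ℝ, ∀ᶠ m in (𝒰 : Filter ι), N.Traj D (q m) (sh (t m) (c m)) (S.β i) (S.β j)
      (z m) (z' m) ∧ N.tE D (sh (t m) (c m)) (S.β i) (S.β j) ≤ S.lE Γ i j n := fun t =>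
    (h1.and hc).mono fun m a => ⟨traj_sh oZ hX.nd (b1 i) (b1 j) a.1 _,
      (ND.CD.tE_eq ((oZ.kap_sh (ad0 a.1.sol.toAdm) _).trans a.2.1.lev)).le⟩
  have H := (h.ti Y.dim hX.con hD hX.nd cv hq).inn c _ ((h1.and hc).mono fun m a =>
    ⟨_, _, _, _, S.crit i, S.crit j, a.1, (ND.CD.tE_eq a.2.1.lev).le⟩)
  obtain ⟨o⟩ := H.out
  obtain ⟨e1, e2⟩ := o.ends_line H (h1.mono fun m a => ⟨S.crit i, S.crit j, a⟩)
  obtain ⟨ζ, a⟩ := lc_const (𝒰 := 𝒰) (S.crit i) z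
  obtain ⟨ζ', a'⟩ := lc_const (𝒰 := 𝒰) (S.crit j) z'
  rw [← e1] at a
  rw [← e2] at a'
  have lv : o.lev = Γ.k j - Γ.k i + n := tendsto_nhds_unique (o.kap_line H)
    (tendsto_const_nhds.congr' (hc.mono fun m a => a.1.lev.symm))
  have hp : ∀ g, b = false → Zr (o.γ g) univ := fun g e => zr_lim (conc_cnt
    (fun _ => Dgr80.en_nonneg _ _ _) ((h2 (o.t g)).mono fun m a =>
      let ⟨k1, k2, _⟩ := h.pos _ (hq m) _ _ _ _ _ (S.crit i) (S.crit j) a.1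
      ⟨k1, k2.trans (mul_le_mul_of_nonneg_left a.2 (by positivity))⟩) (o.lm g).conc) (o.lm g).cv
    (o.lm g).sol.toAdm (hc.mono fun m a x _ => by subst e; exact a.2 _ trivial)
  rcases dich (S := S) (p := fun c => b = false → Zr c univ) o H
    (o.k_ne H (hc.mono fun m a => a.1.mv)) hp a a' with ⟨g, g1, g2⟩ | ⟨ξ, ξ', l, k1, k2⟩
  swap
  · refine .inr ⟨ξ, ξ', l, lv ▸ k1, fun e => (k2 e).imp id fun e' => ?_⟩
    rw [lv, (k2 e).1, sub_self, zero_add] at e'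
    exact_mod_cast e'
  have : Subsingleton (Fin o.k) := ⟨fun a b => (g1 a).trans (g1 b).symm⟩
  have k1 := g.2
  have k2 := Fintype.card_le_one_iff_subsingleton.2 this
  rw [Fintype.card_fin] at k2
  have g3 : g.castSucc = 0 := Fin.ext (by simp; omega)
  have g4 : g.succ = Fin.last _ := Fin.ext (by simp; omega)
  have tr := o.traj H g (g3 ▸ a) (g4 ▸ a')
  have cv0 := (o.lm g).cv
  rw [(o.m_spec H g).1.1 g2, compl_empty] at cv0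
  obtain ⟨J, Q, hJ⟩ := inB_ev cv
  have tl : ∀ (i' : S.C) (σ : ℝ) (e : Filter ℝ) (z : ι → Circle) ζ g', σ = 1 ∨ σ = -1 →
      (∀ S, S ∈ e ↔ ∃ T, {s | T < σ * s} ⊆ S) →
      (∀ᶠ m in (𝒰 : Filter ι), D.nk.Lim (sh (o.t g m) (c m)) (S.β i') (z m) e) →
      D.nk.Lim (o.γ g) (S.β i') ζ e → o.P g' (S.β i') ζ' ∨ o.P g' (S.β i') ζ →
      (∀ R m s, R ≤ s → σ * s + o.t g m ∈ (Brk64.Nk.line ι).Gap o.t g' R m) →
      Tl D d 𝒰 (fun m => sh (o.t g m) (c m)) (S.β i') σ := by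
    intro i' σ e z ζ g' s1 s2 s3 s4 s5 s6
    obtain ⟨γ, d1, d2⟩ := hA i'
    obtain ⟨k', K, d3⟩ := asol_tj hX h d2 cv ((h2 (o.t g)).mono fun m a =>
      ⟨hq m, _, _, _, _, S.crit i, S.crit j, a⟩)
    refine tl_of hD (b1 i') hd (d1 J Q) s1 s2 (((h2 (o.t g)).and (hJ.and (d3.and s3))).mono
      fun m a => ⟨a.1.1.sol.toAdm, ⟨_, ⟨_, a.2.1, rfl⟩, a.2.2.1⟩, a.2.2.2⟩) (o.lm g).sol.toAdm cv0 s4
      fun η hη => ?_
    obtain ⟨R, hR⟩ := s5.elim (o.near_P H · hη) (o.near_P H · hη)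
    refine ⟨R, hR.mono fun m a s hs => ?_⟩
    obtain ⟨-, u, ξ, k⟩ := a _ (s6 R m s hs)
    have := Cl.sh k (o.t g m)
    rw [win_tr rfl] at this
    exact ⟨_, _, this⟩
  refine .inl ⟨o.γ g, o.t g, ⟨⟨_, _, tr⟩, (o.mv H g).resolve_right (not_not.2 g2), ?_⟩, hp g,
    ⟨_, _, ulim_of cv0 tr.sol.toAdm ((h2 (o.t g)).mono fun m a => a.1.sol.toAdm)⟩,
    tl i _ atBot z ζ 0 (.inr rfl) (fun S => ?_) ((h2 _).mono fun m a => a.1.bot) tr.bot (.inr a)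
      fun R m s hs => ⟨trivial, fun x => ⟨fun e => absurd e (Fin.not_lt_zero _), fun _ => by
        rw [g1 x]; linarith⟩⟩,
    tl j _ atTop z' ζ' (Fin.last _) (.inl rfl) (fun S => atTop_basis_Ioi.mem_iff.trans
      (by simp [Ioi])) ((h2 _).mono fun m a => a.1.top) tr.top (.inl a')
      fun R m s hs => ⟨trivial, fun x => ⟨fun _ => by rw [g1 x]; linarith,
        fun e => absurd e (not_le.2 (Fin.castSucc_lt_last x))⟩⟩⟩
  · rw [← lv, NO.lev, Fintype.sum_subsingleton _ g, g2, Nat.cast_zero, add_zero]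
  · exact atBot_basis_Iio.mem_iff.trans ⟨fun ⟨a, _, h⟩ => ⟨-a, fun s hs => h (by simpa using hs)⟩,
      fun ⟨a, h⟩ => ⟨-a, trivial, fun s hs => h (by simpa [lt_neg] using hs)⟩⟩

theorem sml_sz {W : Type} (sz : W → ℝ) : An.Sml fun Adm => ∀ q, Adm q → Nd18.Sml sz q :=
  ⟨fun w => |sz w|, fun _ => abs_nonneg _, fun _ h q hq => Nd18.Sml.mono
    (by simpa [Ball, Nd18.Sml] using h q hq) fun _ => le_abs_self _⟩

/-- **MS-COMP** -/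
theorem cmpS (hX : (XD.mk Y D N).OK) (cz : CZg (IC Y.I) (Y.M × ℝ) D N 0 0) (hE : ElS S)
    (h : ∀ i, P1In D (S.β i) N ∧ LzIn D (S.β i) N ∧ ASg (IC Y.I) (Y.M × ℝ) D (S.β i) N 0 0) :
    CmpS S Γ := by
  classical
  have hD : D.OK := hX.ok
  have := hX.con
  choose γ g0 g1 using fun i => (h i).2.2
  choose d d0 d1 using fun i =>
    Dec35.dec_bl hD hX.nd (S.crit i) (S.irr i) (h i).1 (h i).2.1 (g0 i)
  obtain ⟨d', p, e⟩ := exists_pos_le d0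
  obtain ⟨d₁, p₁, hE⟩ := hE
  obtain ⟨sz, k⟩ := pos_cd Dgr80.posStmt S hD hX.nd Y.dim.le
  obtain ⟨sz', k'⟩ := apt_pos ⟨hD, this, Y.dim⟩ hX.nd
  refine ⟨d', p, (hE.and ((sml_sz sz).and (sml_sz sz'))).mono fun Adm a _ _ => ?_⟩
  have b : ∀ q, Adm q → Pos N D q := fun q hq => k q (a.2.1 q hq) fun i j c ζ ζ' t =>
    ⟨⟨_, p₁, (a.1 q hq i j c ζ ζ' t).1⟩, _, p₁, (a.1 q hq i j c ζ ζ' t).2⟩
  exact cmpL S Γ hX ⟨lvc_cd S hD hX.nd Y.dim.le, b, k' _ fun q hq => ⟨a.2.2 q hq, b q hq⟩, cz,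
    dcg_cd S fun i => ⟨(h i).2.2, (h i).1, (h i).2.1⟩, lit_tj hD⟩ p
    fun i => ⟨_, fun J Q => decU_mono (d1 i J Q) (e i), g1 i⟩

end Crest.Agent.X212.Msc43
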