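import Crest.Agent.X212.Nck90.Adp
import Crest.Agent.X212.Dec35.Asm
import Crest.Agent.X212.An.Job

/-!
# X212, MS-COMP (helper43), part 1: chains of trajectories, strong limits
-/

set_option autoImplicit false
set_option linter.unusedSectionVars false
noncomputable section
open scoped Manifold ContDiff Topology InnerProductSpace
open MeasureTheory Set Function Filter

namespace Crest.Agent.X212.Msc43
open An Sob92 Cyf70 Neck67 Cmp73 Pj41 Eqv71 Tmp64 Nd18 Std94 Bki64 Nck90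

/-- concentration points are countable -/
theorem conc_cnt {X α : Type} [TopologicalSpace X] [T2Space X] [LocallyCompactSpace X]
    [MeasurableSpace X] [BorelSpace X] {μ : Measure X} {l : Filter α} [l.NeBot] {f : α → X → ℝ}
    {E : ℝ} (h0 : ∀ a x, 0 ≤ f a x) (hE : ∀ᶠ a in l, Integrable (f a) μ ∧ ∫ x, f a x ∂μ ≤ E)
    {S : Set X} (h : ∀ p ∈ S, ∃ e > 0, ∀ K ∈ 𝓝 p, IsCompact K → ∀ᶠ a in l, e ≤ ∫ x in K, f a x ∂μ) :
    S.Countable := by
  refine (countable_iUnion fun m : ℕ => Set.Finite.countable (s := {p | ∀ K ∈ 𝓝 p, IsCompact K →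
    ∀ᶠ a in l, 1 / ((m : ℝ) + 1) ≤ ∫ x in K, f a x ∂μ}) (by_contra fun hm => ?_)).mono fun p hp => ?_
  · obtain ⟨n, hn⟩ := exists_nat_gt (E * (m + 1))
    obtain ⟨s, s1, s2⟩ := Set.Infinite.exists_subset_card_eq hm n
    obtain ⟨U, u1, u2⟩ := s.finite_toSet.t2_separation
    choose K k1 k2 k3 using fun x => local_compact_nhds ((u1 x).2.mem_nhds (u1 x).1)
    obtain ⟨a, a1, a2, a3⟩ := (((eventually_all_finset s).2 fun x hx =>
      s1 hx _ (k1 x) (k3 x)).and hE).exists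
    have e := integral_biUnion_finset (μ := μ) (f := f a) s (fun x _ => (k3 x).measurableSet)
      (fun x hx y hy e => (u2 hx hy e).mono (k2 x) (k2 y)) fun _ _ => a2.integrableOn
    have b := Finset.card_nsmul_le_sum s _ _ a1
    rw [← e, s2, nsmul_eq_mul, mul_one_div, div_le_iff₀ (by positivity)] at b
    have := setIntegral_le_integral (s := ⋃ x ∈ s, K x) a2 (.of_forall (h0 a))
    nlinarith [mul_le_mul_of_nonneg_right (this.trans a3) (by positivity : (0 : ℝ) ≤ m + 1)]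
  · obtain ⟨e, e0, he⟩ := h p hp
    obtain ⟨m, hm⟩ := exists_nat_one_div_lt e0
    exact mem_iUnion.2 ⟨m, fun K a b => (he K a b).mono fun _ k => hm.le.trans k⟩

variable {E3 : Type} [NormedAddCommGroup E3] [NormedSpace ℝ E3] [FiniteDimensional ℝ E3]
  [MeasurableSpace E3] [BorelSpace E3]
  {H3 : Type} [TopologicalSpace H3] {I3 : ModelWithCorners ℝ E3 H3} [I3.Boundaryless]
  {Y : Type} [TopologicalSpace Y] [ChartedSpace H3 Y] [IsManifold I3 ∞ Y] [T2Space Y]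
  [MeasurableSpace Y] [BorelSpace Y] [SecondCountableTopology Y] [CompactSpace Y]
  {κ : Type} [Fintype κ] {lam : Type} [Fintype lam] {D : YD I3 Y κ lam} {β : YC Y κ lam}
  {N : ND Y lam} {q : YW I3 Y →₀ ℝ} {ν : Type} {𝒰 : Ultrafilter ν} {l : Filter ν}
  {c : ν → Cfg (Y × ℝ) (Option κ) lam 0} {γ : Cfg (Y × ℝ) (Option κ) lam 0}
  {v : ∀ n, Y × ℝ → CL (c n).m.V γ.m.V} {S : N.CD D} {p : Cfg (Y × ℝ) (Option κ) lam 0 → Prop}
  {i j : S.C} {ζ ζ' : Circle} {x x' : ℝ} {m m' : ℕ} {𝒜 𝒜' 𝒜'' : Pc Y κ lam}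

/-- the spinor vanishes in the limit -/
theorem zr_lim [l.NeBot] {T : Set (Y × ℝ)} (hT : T.Countable) (h : CvC D.Z l (ρ := fun _ => 0) c γ v Tᶜ)
    (h0 : γ.Adm D.B D.G) (hz : ∀ᶠ n in l, Zr (c n) univ) : Zr γ univ := fun z _ => by
  have c1 : Continuous fun s => γ.Φ (z.1, s) := h0.sm.continuous.comp (by fun_prop)
  refine congrFun (c1.ext_on ((hT.preimage (f := fun s : ℝ => (z.1, s))
    fun _ _ e => (Prod.mk.inj e).2).dense_compl ℝ) continuous_zero fun s hs => ?_) z.2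
  obtain ⟨O, o1, -, o2⟩ := h _ hs
  refine norm_le_zero_iff.1 (le_of_forall_pos_le_add fun ε hε => ?_)
  obtain ⟨n, a1, a2⟩ := ((o2 0 ε hε).and hz).exists
  simpa [dP, a2 _ trivial, cs] using a1.P.le o1

theorem ulim_of (h : CvC D.Z l (ρ := fun _ => 0) c γ v univ) (h0 : γ.Adm D.B D.G)
    (ha : ∀ᶠ n in l, (c n).Adm D.B D.G) :
    ULim (IC I3) D.B l univ (fun _ => D.Z.e) c γ v fun _ => 1 := by
  refine ⟨fun x hx => ?_, fun a => .of_local fun x hx => ?_, .of_local fun x hx => ?_,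
    tendsto_const_nhds.congr fun _ => Subsingleton.elim _ _⟩ <;> obtain ⟨O, o1, o2, o3⟩ := h x hx
  · exact ⟨O, o2, o1, ((o3 0).iso.and ha).mono fun n k => k.1.mEq (OK.on k.2.ok _) (OK.on h0.ok _)⟩
  · exact ⟨O, o1, ZZ.cv fun k => (o3 k).A a⟩
  · exact ⟨O, o1, ((ZZ.cv fun k => (o3 k).P).add (.fixed' h0.sm)).congr' o2
      (.of_forall fun _ _ _ => (sub_add_cancel _ _).symm) fun _ _ => (zero_add _).symm⟩

/-- local bounds -/
theorem bd_cl (hβ : D.Adm β) (h : CvC D.Z l (ρ := fun _ => 0) c γ v univ) (h0 : γ.Adm D.B D.G)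
    {u : Y × ℝ → CL γ.m.V β.m.V} {O K U : Set (Y × ℝ)} (hO : IsOpen O) (hK : IsCompact K)
    (e : O ⊆ K) (e' : K ⊆ U) (hu : Iso0 (IC I3) γ.m (cy β).m U u) (k : ℕ) : ∃ C, ∀ᶠ n in l,
      Cl D.Z (c n) (cy β) (fun x => u x ∘L v n x) (fun _ => 1 * 1) O k C := by
  have H := h.cz hK (subset_univ _) hO e k
  have f : ∀ {V : Type} [NormedAddCommGroup V] [NormedSpace ℝ V] {φ : Y × ℝ → V},
      (∀ x ∈ U, FSm (IC I3) φ x) → BB D.Z.toPre l (fun _ => O) k fun _ => φ := fun h =>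
    BB.fixed hK e' (.of_forall fun _ => ⟨hO, e⟩) k h
  have i0 := hu.mono (e.trans e')
  choose A hA using fun a => ((f fun x hx => fsm_dA (F := D.Z) (c' := cy β) (hu.su x hx)
    (h0.conn.cc.sm a x) (hβ.adm.conn.cc.sm a x)).add ((f hu.su).comp ((H.A a).bb.comp
      (f hu.su).ad))).congr (H.iso.mono fun _ k _ hx => dA_comp (c'' := cy β) k i0 hx a)
  obtain ⟨P, hP⟩ := ((f (V := β.m.V) (φ := dP γ (cy β) u 1) fun x hx => ((csB β.m.J 1).contMDiff.contMDiffAt.comp x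
    ((hu.su x hx).clm_apply (h0.sm x))).sub (hβ.adm.sm x)).add (((f hu.su).app H.P.bb).clm
      (csB β.m.J (1 : Circle)))).congr (.of_forall fun n _ hx =>
        dP_comp (c := c n) (c'' := cy β) (u := v n) hβ.adm.ok.Jsq i0 hx 1 1)
  obtain ⟨C, c1, c2⟩ := ((eventually_all.2 fun a => eventually_ge_atTop (A a)).and
    (eventually_ge_atTop P)).exists
  refine ⟨C, ?_⟩
  filter_upwards [H.iso, eventually_all.2 hA, hP] with n a1 a2 a3
  exact ⟨hO, a1.trans i0, fun a => (a2 a).2.mono (c1 a), a3.2.mono c2⟩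

/-! ### chains -/

theorem chp_trans {i' i'' : S.C} {ζ''} (h : S.ChP q p i ζ i' ζ' x m) (h' : S.ChP q p i' ζ' i'' ζ'' x' m') :
    S.ChP q p i ζ i'' ζ'' (x + x') (m + m') := by
  induction h with
  | nil => simpa using h'
  | bub _ ih => simpa [add_assoc, add_comm, add_left_comm] using (ih h').bub
  | mov c h1 h2 h3 _ ih =>
    simpa [add_assoc, add_comm, add_left_comm] using ND.CD.ChP.mov c h1 h2 h3 (ih h')

theorem chp_bubs (i : S.C) (ζ : Circle) : ∀ m : ℕ, S.ChP q p i ζ i ζ m m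
  | 0 => by simpa using ND.CD.ChP.nil i ζ
  | m + 1 => by simpa using (chp_bubs i ζ m).bub

variable (S q p) in
/-- chains between classes -/
def CP (𝒜 𝒜' : Pc Y κ lam) (x : ℝ) (m : ℕ) : Prop :=
  (∀ i ζ j ζ', 𝒜 (S.β i) ζ → 𝒜' (S.β j) ζ' → S.ChP q p i ζ j ζ' x m) ∨
    (𝒜 = 𝒜' ∧ ∀ i ζ, S.ChP q p i ζ i ζ x m)

theorem CP.trans (h : CP q S p 𝒜 𝒜' x m) (h' : CP q S p 𝒜' 𝒜'' x' m')
    (ne : ∃ i ζ, 𝒜' (S.β i) ζ) : CP q S p 𝒜 𝒜'' (x + x') (m + m') := by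
  obtain ⟨β, ζ, a⟩ := ne
  rcases h with h | ⟨rfl, h⟩ <;> rcases h' with h' | ⟨rfl, h'⟩
  · exact .inl fun _ _ _ _ b b' => chp_trans (h _ _ _ _ b a) (h' _ _ _ _ a b')
  · exact .inl fun _ _ _ _ b b' => chp_trans (h _ _ _ _ b b') (h' _ _)
  · exact .inl fun _ _ _ _ b b' => chp_trans (h _ _) (h' _ _ _ _ b b')
  · exact .inr ⟨rfl, fun _ _ => chp_trans (h _ _) (h' _ _)⟩

theorem cs_mem (hD : D.OK) (h : Cs N D 𝒜) : ∃ i ζ, 𝒜 (S.β i) ζ :=
  let ⟨_, _, a⟩ := h.ne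
  let ⟨i, e⟩ := S.cov _ (h.crit a)
  let ⟨_, _, k⟩ := stb_of_eqv hD (crit_adm (h.crit a)) (crit_adm (S.crit i)) e
  ⟨i, _, h.act a (S.crit i) k⟩

theorem cs_eq (hD : D.OK) (h : Cs N D 𝒜) (a : 𝒜 (S.β i) ζ) (a' : 𝒜 (S.β j) ζ') : i = j :=
  let ⟨_, k⟩ := h.stb a a'
  S.sep _ _ (k.eqv hD (crit_adm (S.crit i)) (crit_adm (S.crit j)))

theorem lc_const (hβ : N.Crit D β) (z : ν → Circle) : ∃ ζ, Lc N D 𝒰 (fun _ => β) z β ζ := by
  obtain ⟨ξ, -, hξ⟩ := isCompact_univ.ultrafilter_le_nhds (𝒰.map z) (by simp)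
  refine ⟨ξ, hβ, fun η hη => ?_⟩
  obtain ⟨η', p, h⟩ := phase_eta (crit_adm hβ) hη
  have k : Tendsto (fun n => ξ / z n) 𝒰 (𝓝 (ξ / ξ)) := tendsto_const_nhds.div' hξ
  rw [div_self'] at k
  exact (k.eventually (Metric.closedBall_mem_nhds _ p)).mono fun n a =>
    ⟨_, h _ _ _ _ _ _ a ((Stb.refl (crit_adm hβ)).cl (win_op _ _) p.le)⟩

variable (o : NO N D q 𝒰 (Brk64.Nk.line ν) (ρ := fun _ => 0) c)
  (H : NI N D q 𝒰 (Brk64.Nk.line ν) (ρ := fun _ => 0) c)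
include H

theorem cp (hp : ∀ g, p (o.γ g)) : CP q S p (o.P 0) (o.P (Fin.last _)) o.lev o.len :=
  chain_ind (Q := fun g x j => CP q S p (o.P g) (o.P (Fin.last _)) x j)
    (.inr ⟨rfl, ND.CD.ChP.nil⟩) fun g _ _ h => CP.trans (by
      split_ifs with hm
      · exact .inl fun _ _ _ _ h h' => .mov _ (o.traj H g h h') hm (hp g) (chp_bubs _ _ _)
      · rw [(o.still H hm).1, (o.still H hm).2, zero_add, add_zero]
        exact .inr ⟨rfl, fun _ _ => chp_bubs _ _ _⟩) h (cs_mem H.ok (o.cs H _))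

/-- one trajectory without bubbles, or a chain -/
theorem dich (hk : o.k ≠ 0) (hp : ∀ g, p (o.γ g)) (a : o.P 0 (S.β i) ζ)
    (a' : o.P (Fin.last _) (S.β j) ζ') : (∃ g, (∀ g', g' = g) ∧ o.m g = 0) ∨
      ∃ ζ ζ' l, S.ChP q p i ζ j ζ' o.lev l ∧ (l = 1 → i = j ∧ o.lev = 1) := by
  refine or_iff_not_imp_left.2 fun h => ?_
  have k : o.len = 1 → i = j ∧ o.lev = 1 := fun e => by
    have h1 := o.k_le H
    have h2 : ∀ g g' : Fin o.k, g' = g := fun g g' => Fin.ext (by omega)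
    let g : Fin o.k := ⟨0, by omega⟩
    have : Subsingleton (Fin o.k) := ⟨fun a b => h2 b a⟩
    have h3 : o.m g ≠ 0 := fun e => h ⟨g, h2 g, e⟩
    rw [NO.len, Fintype.sum_subsingleton _ g] at e
    have h4 : ¬D.Moves (o.γ g) := fun k => by rw [if_pos k] at e; omega
    rw [if_neg h4, add_zero] at e
    obtain ⟨h5, h6⟩ := o.still H h4
    rw [show g.succ = Fin.last _ from Fin.ext (by simp [g]; omega)] at h5
    exact ⟨cs_eq H.ok (o.cs H _) (h5 ▸ a :) a', by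
      rw [NO.lev, Fintype.sum_subsingleton _ g, h6, e]; simp⟩
  rcases cp (S := S) o H hp with h1 | ⟨h1, h2⟩
  · exact ⟨_, _, _, h1 _ _ _ _ a a', k⟩
  · obtain rfl := cs_eq H.ok (o.cs H _) (h1 ▸ a :) a'
    exact ⟨_, _, _, h2 _ ζ, k⟩

end Crest.Agent.X212.Msc43
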